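import Mathlib
import Vale.Agent.P365.T2.H213.GoodTime

set_option linter.all false

/-!
# P365 T2, row X-ORDER, final form: the order of the constants in ONE (helper179)

Version 2 (after 908, 629, 862, 905): the count of hot partners is only available in the form
`∀ e ∃ g = gf e, (stage average of) Bn g ≤ C e`; no parameter for the bad sites (862); the linear
forms `om_le`, `det_le` of 905 (`T2/OneDet2_905.lean`).

`St` = the type of all states; `En` energy, `Gr` growth rate, `Loss` dissipation, `Err` hub errors,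
static shares and tails, `Pos T` entropy production at truncation level `T`, `Bn g` energy flux of the
hot rows in blocks of local energy `> g`, `Mob θ` energy of the mobile rows,
`Om θ ε = ∑_{Mob θ} om π V P(Z or κ < ε)`, `Sm θ ε₁ ε₂ = JS / ε₁ + MS + LamS / (ε₁ ε₂)`.

Chain: `c → θ → k₁ → e₁, g₁ = gf e₁ → ε₁ → δ → k₂ → e₂, g₂ = gf e₂ → ε₂ → T₀ → δ₀ → ε₀, S₀`.
-/

namespace P365T2.H179

/-- the facts that ONE consumes, with their quantifiers -/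
structure OneFacts2 (St : Type*) (En Gr Loss Err : St → ℝ) (Pos Bn Mob : ℝ → St → ℝ)
    (Om : ℝ → ℝ → St → ℝ) (Sm : ℝ → ℝ → ℝ → St → ℝ) : Prop where
  En0 : ∀ s, 0 ≤ En s
  Bn0 : ∀ g s, 0 ≤ Bn g s
  /-- mobility: non-mobile rows contribute little to the growth -/
  mob : ∀ ρ : ℝ, 0 < ρ → ∃ θ : ℝ, 0 < θ ∧ θ ≤ 1 ∧ ∃ C : ℝ, 0 < C ∧
    ∀ s, Gr s ≤ C * Mob θ s + ρ * En s + C * Err s
  /-- the deterministic static inequality (905's `det_le`) -/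
  det : ∀ θ : ℝ, 0 < θ → θ ≤ 1 → ∃ C : ℝ, 0 < C ∧ ∀ ε₁ : ℝ, 0 < ε₁ → ε₁ ≤ 1 →
    ∀ δ : ℝ, 0 < δ → δ ≤ 1 → ∀ ε₂ : ℝ, 0 < ε₂ → ε₂ ≤ 1 → ∀ s, Mob θ s ≤
      C * (Sm θ ε₁ ε₂ s + δ / ε₁ * En s + Err s + Om θ ε₁ s + Om θ ε₂ s / δ)
  /-- resampling of the strong part (968, 216) -/
  res : ∀ θ : ℝ, 0 < θ → θ ≤ 1 → ∀ ε₁ : ℝ, 0 < ε₁ → ε₁ ≤ 1 → ∀ ε₂ : ℝ, 0 < ε₂ → ε₂ ≤ 1 →
    ∃ C : ℝ, 0 < C ∧ ∀ s, Sm θ ε₁ ε₂ s ≤ C * (Loss s + Err s)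
  /-- quiet partners + far partners + bad partners + count (905's `om_le`, `L := k`) -/
  om : ∀ θ : ℝ, 0 < θ → θ ≤ 1 → ∃ C : ℝ, 0 < C ∧ ∀ k : ℝ, 1 ≤ k → ∃ C' : ℝ, 0 < C' ∧
    ∃ T₀ : ℝ, 1 ≤ T₀ ∧ ∀ T : ℝ, T₀ ≤ T → ∀ g : ℝ, 1 ≤ g → ∀ ε : ℝ, 0 < ε → ε ≤ 1 → ∀ s,
      Om θ ε s ≤ C / k * (Pos T s + En s) + C' * (ε * g) * En s + C' * Bn g s + C' * Err s

variable {St : Type*} {En Gr Loss Err : St → ℝ} {Pos Bn Mob : ℝ → St → ℝ}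
  {Om : ℝ → ℝ → St → ℝ} {Sm : ℝ → ℝ → ℝ → St → ℝ}

/-- the weak content is small: `ρ → k → e, g = gf e → ε` -/
theorem OneFacts2.om_small (h : OneFacts2 St En Gr Loss Err Pos Bn Mob Om Sm) {θ : ℝ}
    (hθ : 0 < θ) (hθ1 : θ ≤ 1) {C1 K : ℝ} (hC1 : 0 < C1) (hK : 0 < K) {ρ : ℝ} (hρ : 0 < ρ)
    (gf : ℝ → ℝ) (hgf : ∀ e, 0 < e → 1 ≤ gf e) :
    ∃ T₀ : ℝ, 1 ≤ T₀ ∧ ∃ e : ℝ, 0 < e ∧ ∃ ε : ℝ, 0 < ε ∧ ε ≤ 1 ∧ ∃ η : ℝ, 0 < η ∧ ∀ T : ℝ, T₀ ≤ T →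
      ∀ s, En s ≤ C1 → Pos T s ≤ K → Bn (gf e) s ≤ e * K → Err s ≤ η → Om θ ε s ≤ ρ := by
  obtain ⟨C, hC, hom⟩ := h.om θ hθ hθ1
  set k : ℝ := 1 + 4 * C * (K + C1) / ρ with hk
  have hk1 : 1 ≤ k := by
    have : 0 ≤ 4 * C * (K + C1) / ρ := by positivity
    linarith
  obtain ⟨C', hC', T₀, hT₀, hom⟩ := hom k hk1
  have hk0 : 0 < k := by linarith
  set e : ℝ := ρ / (4 * C' * K) with he
  have he0 : 0 < e := by positivity
  have hg1 : 1 ≤ gf e := hgf e he0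
  have hg0 : 0 < gf e := by linarith
  set ε : ℝ := min 1 (ρ / (4 * C' * gf e * C1)) with hε
  have hε0 : 0 < ε := lt_min one_pos (by positivity)
  set η : ℝ := ρ / (4 * C') with hη
  have hη0 : 0 < η := by positivity
  refine ⟨T₀, hT₀, e, he0, ε, hε0, min_le_left _ _, η, hη0, fun T hT s h1 h2 h3 h4 => ?_⟩
  have e0 := hom T hT (gf e) hg1 ε hε0 (min_le_left _ _) s
  have e1 : C / k * (Pos T s + En s) ≤ ρ / 4 := by
    have : C / k * (Pos T s + En s) ≤ C / k * (K + C1) :=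
      mul_le_mul_of_nonneg_left (by linarith) (by positivity)
    have h5 : C / k * (K + C1) ≤ ρ / 4 := by
      rw [div_mul_eq_mul_div, div_le_div_iff₀ hk0 (by norm_num)]
      have : ρ * k = ρ + 4 * C * (K + C1) := by
        rw [hk]
        field_simp
      nlinarith
    linarith
  have e3 : C' * (ε * gf e) * En s ≤ ρ / 4 := by
    have h5 : C' * (ε * gf e) * En s ≤ C' * (ε * gf e) * C1 :=
      mul_le_mul_of_nonneg_left h1 (by positivity)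
    have h6 : ε ≤ ρ / (4 * C' * gf e * C1) := min_le_right _ _
    have h7 : C' * (ε * gf e) * C1 = C' * gf e * C1 * ε := by ring
    have h8 : C' * gf e * C1 * ε ≤ C' * gf e * C1 * (ρ / (4 * C' * gf e * C1)) :=
      mul_le_mul_of_nonneg_left h6 (by positivity)
    have h9 : C' * gf e * C1 * (ρ / (4 * C' * gf e * C1)) = ρ / 4 := by
      field_simp
    linarith
  have e4 : C' * Bn (gf e) s ≤ ρ / 4 := by
    have h5 : C' * Bn (gf e) s ≤ C' * (e * K) := mul_le_mul_of_nonneg_left h3 hC'.le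
    have h6 : C' * (e * K) = ρ / 4 := by
      rw [he]
      field_simp
    linarith
  have e5 : C' * Err s ≤ ρ / 4 := by
    have h5 : C' * Err s ≤ C' * η := mul_le_mul_of_nonneg_left h4 hC'.le
    have h6 : C' * η = ρ / 4 := by
      rw [hη]
      field_simp
    linarith
  linarith

/-- **the one-time theorem, order of constants**; `gf` = threshold function of the count -/
theorem OneFacts2.one (h : OneFacts2 St En Gr Loss Err Pos Bn Mob Om Sm)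
    {c C1 K : ℝ} (hc : 0 < c) (hC1 : 0 < C1) (hK : 0 < K) (gf : ℝ → ℝ)
    (hgf : ∀ e, 0 < e → 1 ≤ gf e) :
    ∃ T₀ : ℝ, 1 ≤ T₀ ∧ ∃ e₁ : ℝ, 0 < e₁ ∧ ∃ e₂ : ℝ, 0 < e₂ ∧ ∃ δ₀ : ℝ, 0 < δ₀ ∧
      ∀ T : ℝ, T₀ ≤ T → ∀ s, En s ≤ C1 → Pos T s ≤ K → Bn (gf e₁) s ≤ e₁ * K →
        Bn (gf e₂) s ≤ e₂ * K → Loss s ≤ δ₀ → Err s ≤ δ₀ → Gr s < c := by
  obtain ⟨θ, hθ, hθ1, Cm, hCm, hmob⟩ := h.mob (c / (4 * C1)) (by positivity)
  obtain ⟨D, hD, hdet⟩ := h.det θ hθ hθ1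
  -- the budget of each of the five terms
  set ρ : ℝ := c / (20 * Cm * D) with hρ
  have hρ0 : 0 < ρ := by positivity
  obtain ⟨T₁, hT₁, e₁, he₁, ε₁, hε₁, hε₁1, η₁, hη₁, ho₁⟩ :=
    h.om_small hθ hθ1 hC1 hK hρ0 gf hgf
  set δ : ℝ := min 1 (ρ * ε₁ / C1) with hδ
  have hδ0 : 0 < δ := lt_min one_pos (by positivity)
  have hδ1 : δ ≤ 1 := min_le_left _ _
  obtain ⟨T₂, hT₂, e₂, he₂, ε₂, hε₂, hε₂1, η₂, hη₂, ho₂⟩ :=
    h.om_small hθ hθ1 hC1 hK (mul_pos hρ0 hδ0) gf hgf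
  obtain ⟨CS, hCS, hres⟩ := h.res θ hθ hθ1 ε₁ hε₁ hε₁1 ε₂ hε₂ hε₂1
  set dl : ℝ := min (min η₁ η₂) (min (min ρ (c / (8 * Cm))) (ρ / (2 * CS))) with hdl
  have hdl0 : 0 < dl := by
    rw [hdl]
    exact lt_min (lt_min hη₁ hη₂) (lt_min (lt_min hρ0 (by positivity)) (by positivity))
  have d1 : dl ≤ η₁ := (min_le_left _ _).trans (min_le_left _ _)
  have d2 : dl ≤ η₂ := (min_le_left _ _).trans (min_le_right _ _)
  have d3 : dl ≤ ρ := (min_le_right _ _).trans ((min_le_left _ _).trans (min_le_left _ _))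
  have d5 : dl ≤ c / (8 * Cm) :=
    (min_le_right _ _).trans ((min_le_left _ _).trans (min_le_right _ _))
  have d4 : dl ≤ ρ / (2 * CS) := (min_le_right _ _).trans (min_le_right _ _)
  refine ⟨max T₁ T₂, le_max_of_le_left hT₁, e₁, he₁, e₂, he₂, dl, hdl0,
    fun T hT s h1 h2 h3 h4 h5 h6 => ?_⟩
  have E0 := h.En0 s
  have t1 : Sm θ ε₁ ε₂ s ≤ ρ := by
    have e1 := hres s
    have e2 : CS * (Loss s + Err s) ≤ CS * (ρ / (2 * CS) + ρ / (2 * CS)) :=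
      mul_le_mul_of_nonneg_left (by linarith) hCS.le
    have e3 : CS * (ρ / (2 * CS) + ρ / (2 * CS)) = ρ := by
      field_simp
      ring
    linarith
  have t2 : δ / ε₁ * En s ≤ ρ := by
    have e1 : δ / ε₁ * En s ≤ δ / ε₁ * C1 := mul_le_mul_of_nonneg_left h1 (by positivity)
    have e2 : δ / ε₁ * C1 ≤ ρ := by
      have h7 : δ ≤ ρ * ε₁ / C1 := min_le_right _ _
      have h8 : δ / ε₁ * C1 = C1 / ε₁ * δ := by
        field_simp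
      rw [h8]
      calc C1 / ε₁ * δ ≤ C1 / ε₁ * (ρ * ε₁ / C1) :=
            mul_le_mul_of_nonneg_left h7 (by positivity)
        _ = ρ := by field_simp
    linarith
  have t3 : Err s ≤ ρ := by linarith
  have t4 : Om θ ε₁ s ≤ ρ :=
    ho₁ _ ((le_max_left _ _).trans hT) s h1 h2 h3 (h6.trans d1)
  have t5 : Om θ ε₂ s / δ ≤ ρ := by
    rw [div_le_iff₀ hδ0]
    exact ho₂ _ ((le_max_right _ _).trans hT) s h1 h2 h4 (h6.trans d2)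
  have t6 : Mob θ s ≤ D * (5 * ρ) := by
    refine (hdet ε₁ hε₁ hε₁1 δ hδ0 hδ1 ε₂ hε₂ hε₂1 s).trans
      (mul_le_mul_of_nonneg_left ?_ hD.le)
    linarith
  have t7 : Cm * (D * (5 * ρ)) = c / 4 := by
    rw [hρ]
    field_simp
    ring
  have t8 : c / (4 * C1) * En s ≤ c / 4 := by
    have e1 : c / (4 * C1) * En s ≤ c / (4 * C1) * C1 :=
      mul_le_mul_of_nonneg_left h1 (by positivity)
    have e2 : c / (4 * C1) * C1 = c / 4 := by field_simp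
    linarith
  have t9 := hmob s
  have t10 : Cm * Mob θ s ≤ Cm * (D * (5 * ρ)) := mul_le_mul_of_nonneg_left t6 hCm.le
  have t11 : Cm * Err s ≤ c / 8 := by
    have e1 : Cm * Err s ≤ Cm * (c / (8 * Cm)) := mul_le_mul_of_nonneg_left (by linarith) hCm.le
    have e2 : Cm * (c / (8 * Cm)) = c / 8 := by field_simp
    linarith
  linarith

/-- **one stage**: with `good_time` of 213.  `K` depends on `c, C1, CU, CQ` only and is fixed before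
`e₁, e₂`; then `T₀` and `ε₀, S₀`.  The count enters the flow as `Bn (gf e₁) / e₁ + Bn (gf e₂) / e₂`,
so `CQ` must be a bound valid for all `e₁, e₂`. -/
theorem OneFacts2.stage (h : OneFacts2 St En Gr Loss Err Pos Bn Mob Om Sm)
    {c C1 CU CQ : ℝ} (hc : 0 < c) (hC1 : 0 < C1) (hCU : 0 ≤ CU) (hCQ : 0 ≤ CQ) (gf : ℝ → ℝ)
    (hgf : ∀ e, 0 < e → 1 ≤ gf e) :
    ∃ T₀ : ℝ, 1 ≤ T₀ ∧ ∃ e₁ : ℝ, 0 < e₁ ∧ ∃ e₂ : ℝ, 0 < e₂ ∧ ∀ T : ℝ, T₀ ≤ T →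
      ∃ ε₀ : ℝ, 0 < ε₀ ∧ ∃ S₀ : ℝ, 0 < S₀ ∧ ∀ S ≥ S₀, ∀ ε ≤ ε₀, ∀ (st : ℝ → St) (L U Q : ℝ → ℝ),
        P365T2.H213.Flow C1 CU CQ T ε S (fun τ => En (st τ)) L U Q (fun τ => Loss (st τ))
          (fun τ => Pos T (st τ)) (fun τ => Gr (st τ))
          (fun τ => Bn (gf e₁) (st τ) / e₁ + Bn (gf e₂) (st τ) / e₂) →
        (∀ τ ∈ Set.Ioo 0 S, Err (st τ) ≤ ε₀) → L S - L 0 < c * S := by
  obtain ⟨K, hK, hgt⟩ := P365T2.H213.good_time hc hC1 hCU hCQ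
  obtain ⟨T₀, hT₀, e₁, he₁, e₂, he₂, δ, hδ, hone⟩ :=
    h.one (c := c / 4) (by positivity) hC1 hK gf hgf
  refine ⟨T₀, hT₀, e₁, he₁, e₂, he₂, fun T hT => ?_⟩
  obtain ⟨ε₀, hε₀, S₀, hS₀, hgt⟩ := hgt T (by linarith) δ hδ
  refine ⟨min ε₀ δ, lt_min hε₀ hδ, S₀, hS₀, fun S hS ε hε st L U Q hfl herr => ?_⟩
  by_contra hcon
  push Not at hcon
  obtain ⟨τ, hτ, h1, h2, h3, h4⟩ := hgt S hS ε (hε.trans (min_le_left _ _)) _ L U Q _ _ _ _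
    hfl hcon
  have c1 : 0 ≤ Bn (gf e₁) (st τ) / e₁ := div_nonneg (h.Bn0 _ _) he₁.le
  have c2 : 0 ≤ Bn (gf e₂) (st τ) / e₂ := div_nonneg (h.Bn0 _ _) he₂.le
  have d1 : Bn (gf e₁) (st τ) ≤ e₁ * K := by
    have : Bn (gf e₁) (st τ) / e₁ ≤ K := by linarith
    rw [div_le_iff₀ he₁] at this
    linarith
  have d2 : Bn (gf e₂) (st τ) ≤ e₂ * K := by
    have : Bn (gf e₂) (st τ) / e₂ ≤ K := by linarith
    rw [div_le_iff₀ he₂] at this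
    linarith
  have h5 := hone T hT (st τ) (hfl.D1 τ ⟨hτ.1.le, hτ.2.le⟩) h3 d1 d2 h2
    ((herr τ hτ).trans (min_le_right _ _))
  linarith

end P365T2.H179
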