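import Vale.Agent.P365.T2.Path963
import Vale.Agent.P365.T2.StrongB968

/-!
# P365 T2, row X-ONEWIRE, toolbox: averages of measurable dominated functionals (helper179)

`Adm G`: `G : (ι → ℂ) → ℝ` is measurable and dominated on the product of lower half planes by a
functional that is continuous there.  Then `G` is integrable at every positive profile for every
product law with bounded support, `AvG` is linear and monotone on such functionals, and the Bochner
average of a nonnegative one is the `lintegral` average `AvL`.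
-/

set_option autoImplicit false
set_option linter.all false

namespace P365T2.H179

open P365L P365T1 Vale.Agent.P365.J376 P365L.T2.Path MeasureTheory
open scoped ENNReal

section adm

variable {ι : Type*} [Fintype ι] [DecidableEq ι]

/-- measurable and dominated by a continuous functional -/
structure Adm (G : (ι → ℂ) → ℝ) : Prop where
  meas : Measurable G
  dom : ∃ H : (ι → ℂ) → ℝ, ContinuousOn H (LH ι) ∧ ∀ W ∈ LH ι, |G W| ≤ H W

theorem Adm.of_le {G H : (ι → ℂ) → ℝ} (hm : Measurable G) (hH : ContinuousOn H (LH ι))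
    (h0 : ∀ W ∈ LH ι, 0 ≤ G W) (h : ∀ W ∈ LH ι, G W ≤ H W) : Adm G :=
  ⟨hm, H, hH, fun W hW => by rw [abs_of_nonneg (h0 W hW)]; exact h W hW⟩

theorem Adm.of_cont {G : (ι → ℂ) → ℝ} (hm : Measurable G) (hG : ContinuousOn G (LH ι)) : Adm G :=
  ⟨hm, fun W => |G W|, hG.abs, fun W _ => le_rfl⟩

theorem Adm.const (c : ℝ) : Adm fun _ : ι → ℂ => c :=
  Adm.of_cont measurable_const continuousOn_const

theorem Adm.add {G G' : (ι → ℂ) → ℝ} (h : Adm G) (h' : Adm G') : Adm fun W => G W + G' W := by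
  obtain ⟨H, hH, hd⟩ := h.dom
  obtain ⟨H', hH', hd'⟩ := h'.dom
  exact ⟨h.meas.add h'.meas, fun W => H W + H' W, hH.add hH', fun W hW =>
    (abs_add_le _ _).trans (add_le_add (hd W hW) (hd' W hW))⟩

theorem Adm.neg {G : (ι → ℂ) → ℝ} (h : Adm G) : Adm fun W => -G W := by
  obtain ⟨H, hH, hd⟩ := h.dom
  exact ⟨h.meas.neg, H, hH, fun W hW => by rw [abs_neg]; exact hd W hW⟩

theorem Adm.mul {G G' : (ι → ℂ) → ℝ} (h : Adm G) (h' : Adm G') : Adm fun W => G W * G' W := by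
  obtain ⟨H, hH, hd⟩ := h.dom
  obtain ⟨H', hH', hd'⟩ := h'.dom
  refine ⟨h.meas.mul h'.meas, fun W => H W * H' W, hH.mul hH', fun W hW => ?_⟩
  rw [abs_mul]
  exact mul_le_mul (hd W hW) (hd' W hW) (abs_nonneg _) ((abs_nonneg _).trans (hd W hW))

theorem Adm.const_mul {G : (ι → ℂ) → ℝ} (c : ℝ) (h : Adm G) : Adm fun W => c * G W :=
  (Adm.const c).mul h

theorem Adm.sum {κ : Type*} (s : Finset κ) {G : κ → (ι → ℂ) → ℝ} (h : ∀ k ∈ s, Adm (G k)) :
    Adm fun W => ∑ k ∈ s, G k W := by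
  classical
  induction s using Finset.induction_on with
  | empty => simpa using Adm.const (ι := ι) 0
  | insert a s ha ih =>
    simp only [Finset.sum_insert ha]
    exact (h a (Finset.mem_insert_self a s)).add
      (ih fun k hk => h k (Finset.mem_insert_of_mem hk))

/-- restriction to a measurable event -/
theorem Adm.ite {G : (ι → ℂ) → ℝ} (h : Adm G) {S : (ι → ℂ) → Prop} [∀ W, Decidable (S W)]
    (hS : MeasurableSet {W | S W}) : Adm fun W => if S W then G W else 0 := by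
  obtain ⟨H, hH, hd⟩ := h.dom
  refine ⟨Measurable.ite hS h.meas measurable_const, H, hH, fun W hW => ?_⟩
  split_ifs
  · exact hd W hW
  · rw [abs_zero]
    exact (abs_nonneg _).trans (hd W hW)

theorem Adm.integrable {G : (ι → ℂ) → ℝ} (h : Adm G) {m : ι → Measure ℝ}
    [∀ x, IsProbabilityMeasure (m x)] {R : ℝ} (hR : ∀ x, m x (Set.Icc (-R) R)ᶜ = 0) {E : ℝ}
    {e : ι → ℝ} (he : ∀ x, 0 < e x) :
    Integrable (fun v => G (WV E e v)) (Measure.pi m) := by
  obtain ⟨H, hH, hd⟩ := h.dom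
  have hi := integrable_of_continuousOn (E := E) (m := m) hH hR he
  have hm : Measurable fun v => G (WV E e v) := h.meas.comp (P365L.T2.X968.measurable_WV E e)
  exact hi.mono' hm.aestronglyMeasurable
    (Filter.Eventually.of_forall fun v => hd _ (WV_mem_LH he v))

end adm

section av

variable {ι : Type*} [Fintype ι] [DecidableEq ι] {Λ : Type*} [Fintype Λ] {p : Λ → ℝ}
  {ν : Λ → Measure ℝ} {E : ℝ} {e : (ι → Λ) → ι → ℝ}

/-- laws of one world -/
structure Laws (p : Λ → ℝ) (ν : Λ → Measure ℝ) (R : ℝ) : Prop where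
  p0 : ∀ k, 0 ≤ p k
  p1 : ∑ k, p k = 1
  prob : ∀ k, IsProbabilityMeasure (ν k)
  supp : ∀ k, ν k (Set.Icc (-R) R)ᶜ = 0

theorem Laws.w0 {R : ℝ} (h : Laws p ν R) (l : ι → Λ) : 0 ≤ ∏ x, p (l x) :=
  Finset.prod_nonneg fun x _ => h.p0 _

theorem AvG_mono {R : ℝ} (h : Laws p ν R) (he : ∀ l x, 0 < e l x)
    {G G' : (ι → Λ) → (ι → ℂ) → ℝ} (hG : ∀ l, Adm (G l)) (hG' : ∀ l, Adm (G' l))
    (hle : ∀ l, ∀ W ∈ LH ι, G l W ≤ G' l W) : AvG p ν E e G ≤ AvG p ν E e G' := by
  haveI := h.prob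
  refine Finset.sum_le_sum fun l _ => mul_le_mul_of_nonneg_left ?_ (h.w0 l)
  exact integral_mono ((hG l).integrable (fun x => h.supp _) (he l))
    ((hG' l).integrable (fun x => h.supp _) (he l)) fun v => hle l _ (WV_mem_LH (he l) v)

theorem AvG_nonneg {R : ℝ} (h : Laws p ν R) (he : ∀ l x, 0 < e l x)
    {G : (ι → Λ) → (ι → ℂ) → ℝ} (h0 : ∀ l, ∀ W ∈ LH ι, 0 ≤ G l W) : 0 ≤ AvG p ν E e G :=
  Finset.sum_nonneg fun l _ => mul_nonneg (h.w0 l)
    (integral_nonneg fun v => h0 l _ (WV_mem_LH (he l) v))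

theorem AvG_add {R : ℝ} (h : Laws p ν R) (he : ∀ l x, 0 < e l x)
    {G G' : (ι → Λ) → (ι → ℂ) → ℝ} (hG : ∀ l, Adm (G l)) (hG' : ∀ l, Adm (G' l)) :
    AvG p ν E e (fun l W => G l W + G' l W) = AvG p ν E e G + AvG p ν E e G' := by
  haveI := h.prob
  unfold AvG
  rw [← Finset.sum_add_distrib]
  refine Finset.sum_congr rfl fun l _ => ?_
  rw [← mul_add]
  congr 1
  exact integral_add ((hG l).integrable (fun x => h.supp _) (he l))
    ((hG' l).integrable (fun x => h.supp _) (he l))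

theorem AvG_const_mul (c : ℝ) (G : (ι → Λ) → (ι → ℂ) → ℝ) :
    AvG p ν E e (fun l W => c * G l W) = c * AvG p ν E e G := by
  unfold AvG Ex
  rw [Finset.mul_sum]
  refine Finset.sum_congr rfl fun l _ => ?_
  rw [integral_const_mul]
  ring

theorem AvG_sum {R : ℝ} (h : Laws p ν R) (he : ∀ l x, 0 < e l x) {κ : Type*} (s : Finset κ)
    {G : κ → (ι → Λ) → (ι → ℂ) → ℝ} (hG : ∀ k ∈ s, ∀ l, Adm (G k l)) :
    AvG p ν E e (fun l W => ∑ k ∈ s, G k l W) = ∑ k ∈ s, AvG p ν E e (G k) := by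
  classical
  induction s using Finset.induction_on with
  | empty =>
    simp only [Finset.sum_empty]
    unfold AvG Ex
    simp
  | insert a s ha ih =>
    simp only [Finset.sum_insert ha]
    rw [AvG_add h he (hG a (Finset.mem_insert_self a s))
      (fun l => Adm.sum s fun k hk => hG k (Finset.mem_insert_of_mem hk) l),
      ih fun k hk => hG k (Finset.mem_insert_of_mem hk)]

theorem AvG_const {R : ℝ} (h : Laws p ν R) (c : ℝ) :
    AvG p ν E e (fun (_ : ι → Λ) (_ : ι → ℂ) => c) = c := by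
  haveI := h.prob
  unfold AvG Ex
  simp only [integral_const, probReal_univ, smul_eq_mul, one_mul]
  rw [← Finset.sum_mul]
  have h1 : ∑ l : ι → Λ, ∏ x, p (l x) = 1 := by
    rw [← Fintype.piFinset_univ, ← Finset.prod_univ_sum]
    simp [h.p1]
  rw [h1, one_mul]

/-! ### `lintegral` form -/

/-- average over labels and potentials, `lintegral` form -/
noncomputable def AvL (p : Λ → ℝ) (ν : Λ → Measure ℝ) (E : ℝ) (e : (ι → Λ) → ι → ℝ)
    (G : (ι → Λ) → (ι → ℂ) → ℝ≥0∞) : ℝ≥0∞ :=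
  ∑ l : ι → Λ, ENNReal.ofReal (∏ x, p (l x)) *
    ∫⁻ v, G l (WV E (e l) v) ∂(Measure.pi fun x => ν (l x))

theorem AvL_mono (he : ∀ l x, 0 < e l x) {G G' : (ι → Λ) → (ι → ℂ) → ℝ≥0∞}
    (h : ∀ l, ∀ W ∈ LH ι, G l W ≤ G' l W) : AvL p ν E e G ≤ AvL p ν E e G' := by
  unfold AvL
  gcongr with l _ v
  exact h l _ (WV_mem_LH (he l) v)

theorem AvL_add {G G' : (ι → Λ) → (ι → ℂ) → ℝ≥0∞} (hG : ∀ l, Measurable (G l)) :
    AvL p ν E e (fun l W => G l W + G' l W) = AvL p ν E e G + AvL p ν E e G' := by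
  unfold AvL
  rw [← Finset.sum_add_distrib]
  refine Finset.sum_congr rfl fun l _ => ?_
  rw [← mul_add]
  congr 1
  exact lintegral_add_left ((hG l).comp (P365L.T2.X968.measurable_WV E (e l))) _

theorem AvL_const_mul {c : ℝ≥0∞} (hc : c ≠ ⊤) (G : (ι → Λ) → (ι → ℂ) → ℝ≥0∞) :
    AvL p ν E e (fun l W => c * G l W) = c * AvL p ν E e G := by
  unfold AvL
  rw [Finset.mul_sum]
  refine Finset.sum_congr rfl fun l _ => ?_
  rw [lintegral_const_mul' c _ hc]
  ring

/-- the `lintegral` average of a nonnegative admissible functional -/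
theorem AvL_ofReal {R : ℝ} (h : Laws p ν R) (he : ∀ l x, 0 < e l x)
    {G : (ι → Λ) → (ι → ℂ) → ℝ} (hG : ∀ l, Adm (G l)) (h0 : ∀ l, ∀ W ∈ LH ι, 0 ≤ G l W) :
    AvL p ν E e (fun l W => ENNReal.ofReal (G l W)) = ENNReal.ofReal (AvG p ν E e G) := by
  haveI := h.prob
  unfold AvL AvG
  have hn : ∀ l ∈ (Finset.univ : Finset (ι → Λ)), 0 ≤ (∏ x, p (l x)) *
      Ex (fun x => ν (l x)) E (e l) (G l) := fun l _ => mul_nonneg (h.w0 l)
    (integral_nonneg fun v => h0 l _ (WV_mem_LH (he l) v))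
  rw [ENNReal.ofReal_sum_of_nonneg hn]
  refine Finset.sum_congr rfl fun l _ => ?_
  rw [ENNReal.ofReal_mul (h.w0 l)]
  congr 1
  exact (ofReal_integral_eq_lintegral_ofReal ((hG l).integrable (fun x => h.supp _) (he l))
    (Filter.Eventually.of_forall fun v => h0 l _ (WV_mem_LH (he l) v))).symm

theorem AvG_le_of_AvL {R : ℝ} (h : Laws p ν R) (he : ∀ l x, 0 < e l x)
    {G : (ι → Λ) → (ι → ℂ) → ℝ} (hG : ∀ l, Adm (G l)) (h0 : ∀ l, ∀ W ∈ LH ι, 0 ≤ G l W)
    {B : ℝ} (hB : 0 ≤ B)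
    (hle : AvL p ν E e (fun l W => ENNReal.ofReal (G l W)) ≤ ENNReal.ofReal B) :
    AvG p ν E e G ≤ B := by
  rw [AvL_ofReal h he hG h0] at hle
  exact (ENNReal.ofReal_le_ofReal_iff hB).1 hle

end av

end P365T2.H179
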