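import Vale.Agent.P365.T2.H320.PhiR
import Vale.Agent.P365.T2.H784.Heavy
import Vale.Agent.P365.T2.OneWire905

/-!
# P365 T2, field `om`: the count of the hot partners on the torus (helper179)

905's `BH` (mobile flux at heavy places, all scales) for the kernels of 320's truncated field
`fR N J`, against 784's block functionals: `BH_le`.  Only scales `s` with `s + i + 1 ≤ J` are used
(`L = 2 ^ i`), so that the ball `d(v, x) ≤ L rad s` of the truncated metric is a true ball.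
-/

set_option linter.all false

namespace P365T2.H179

open P365L P365O P365T1 Vale.Agent.P365.J376 Finset
open P365T2.H37 (hk wk uk rho)
open P365T2.H320U P365T2.H784 P365T2.H905

/-! ### the kernels -/

theorem uk_le_lin {J k : ℕ} (hk' : k < J + 2) {t : ℝ} (ht : 0 ≤ t) :
    uk J k t ≤ 12 * t / 4 ^ k := by
  rcases Nat.eq_zero_or_pos k with h | h
  · subst h
    rw [P365T2.H37.uk_first ht, pow_zero, div_one, div_le_iff₀ (by positivity)]
    nlinarith [mul_nonneg ht ht]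
  · obtain ⟨k, rfl⟩ : ∃ j, k = j + 1 := ⟨k - 1, by omega⟩
    have h1 : (0 : ℝ) < 4 ^ k := by positivity
    rcases Nat.lt_or_ge k J with h2 | h2
    · rw [P365T2.H37.uk_mid h2 ht, div_le_div_iff₀ (by positivity) (by positivity)]
      have e : (4 : ℝ) ^ (k + 1) = 4 * 4 ^ k := by rw [pow_succ]; ring
      rw [e]
      have h3 : 0 ≤ t * (4 ^ k * 4 ^ k) := by positivity
      have h4 : 0 ≤ t ^ 2 * 4 ^ k := by positivity
      have h5 : 0 ≤ t ^ 3 := by positivity
      nlinarith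
    · have h3 : k = J := by omega
      subst h3
      rw [P365T2.H37.uk_last ht, div_le_div_iff₀ (by positivity) (by positivity)]
      have e : (4 : ℝ) ^ (k + 1) = 4 * 4 ^ k := by rw [pow_succ]; ring
      rw [e]
      have h3 : 0 ≤ t * (4 ^ k * 4 ^ k) := by positivity
      have h4 : 0 ≤ t ^ 2 * 4 ^ k := by positivity
      nlinarith

theorem rho_le (k : ℕ) : rho k ≤ 4 ^ k := by
  unfold rho
  split_ifs with h
  · subst h; norm_num
  · exact pow_le_pow_right₀ (by norm_num) (by omega)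

/-- the constant of the dictionary -/
noncomputable def cD (i : ℕ) : ℝ := 1 / (64 * 96 * 4 ^ (i + 2))

theorem cD_pos (i : ℕ) : 0 < cD i := by unfold cD; positivity

section torus

variable {N : ℕ} [NeZero N]

/-- the truncated kernel in terms of `nrm` -/
theorem uk_fR_le {J k i : ℕ} (hk' : k < J + 2) (x y : Tor N) :
    cD i * uk J k (∑ j, (fR N J j x - fR N J j y) ^ 2) ≤
      min ((nrm (x - y) : ℝ) ^ 2 / (((2 ^ (k + i + 2) : ℕ) : ℝ)) ^ 2) 1 / 64 := by
  have hd0 : 0 ≤ ∑ j, (fR N J j x - fR N J j y) ^ 2 := Finset.sum_nonneg fun _ _ => sq_nonneg _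
  set t := ∑ j, (fR N J j x - fR N J j y) ^ 2 with ht
  have h1 : t ≤ 8 * (nrm (x - y) : ℝ) ^ 2 := by
    have h2 : t ≤ 4 * dsq x y := fR_le_phi (J := J) x y
    have h3 := dsq_le x y
    linarith
  have h4 : t ≤ 4 ^ J := by
    have := ttR_le (N := N) (J := J) x y
    rw [ttR_eq, ← fR_spec] at this
    exact this
  have h5 := uk_le_lin hk' hd0
  have h6 := P365T2.H37.uk_le_three hk' hd0 h4
  have e1 : (((2 ^ (k + i + 2) : ℕ) : ℝ)) ^ 2 = 4 ^ k * 4 ^ (i + 2) := by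
    push_cast
    rw [← pow_mul, mul_comm (k + i + 2) 2, pow_mul, ← pow_add]
    norm_num
    ring_nf
  have hk0 : (0 : ℝ) < 4 ^ k := by positivity
  have hi0 : (0 : ℝ) < 4 ^ (i + 2) := by positivity
  rw [e1, le_div_iff₀ (by norm_num)]
  refine le_min ?_ ?_
  · rw [le_div_iff₀ (by positivity)]
    have h7 : uk J k t ≤ 12 * (8 * (nrm (x - y) : ℝ) ^ 2) / 4 ^ k := by
      refine h5.trans ?_
      rw [div_le_div_iff_of_pos_right hk0]
      linarith
    have h8 : cD i * (12 * (8 * (nrm (x - y) : ℝ) ^ 2) / 4 ^ k) * 64 * (4 ^ k * 4 ^ (i + 2)) =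
        (nrm (x - y) : ℝ) ^ 2 := by
      unfold cD
      field_simp
      ring
    rw [← h8]
    gcongr
    exact (cD_pos i).le
  · have h7 : cD i * uk J k t ≤ cD i * 3 := mul_le_mul_of_nonneg_left h6 (cD_pos i).le
    have h8 : cD i * 3 * 64 ≤ 1 := by
      unfold cD
      rw [div_mul_eq_mul_div, div_mul_eq_mul_div, div_le_one (by positivity)]
      have : (1 : ℝ) ≤ 4 ^ (i + 2) := one_le_pow₀ (by norm_num)
      linarith
    linarith

/-- the ball of the truncated metric is a true ball -/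
theorem nrm_le_of_dd {J k i : ℕ} (hki : k + i + 1 ≤ J) {v x : Tor N}
    (h : ∑ j, (fR N J j v - fR N J j x) ^ 2 ≤ (2 ^ i) ^ 2 * rho k) :
    nrm (v - x) ≤ 2 ^ (k + i + 1) := by
  rw [fR_spec] at h
  have hd0 : 0 ≤ 4 * dsq v x := by linarith [dsq_nonneg v x]
  set t := 4 * dsq v x with ht
  have hJ : (0 : ℝ) < 4 ^ J := by positivity
  have h1 : hk (4 ^ J) t ≤ 4 ^ (k + i) := by
    refine h.trans ?_
    have h2 := rho_le k
    have e : (4 : ℝ) ^ (k + i) = (2 ^ i) ^ 2 * 4 ^ k := by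
      rw [← pow_mul, mul_comm i 2, pow_mul, pow_add]
      norm_num
      ring
    rw [e]
    exact mul_le_mul_of_nonneg_left h2 (by positivity)
  have h2 : (4 : ℝ) ^ (k + i) ≤ 4 ^ J / 4 := by
    have e : (4 : ℝ) ^ (k + i + 1) ≤ 4 ^ J := pow_le_pow_right₀ (by norm_num) hki
    rw [pow_succ] at e
    linarith
  -- `t ≤ 2 hk`
  have h3 : t ≤ 2 * 4 ^ (k + i) := by
    have h4 : 4 ^ J * t ≤ 4 ^ (k + i) * (4 ^ J + t) := by
      unfold P365T2.H37.hk at h1
      rwa [div_le_iff₀ (by positivity)] at h1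
    have h5 : (4 : ℝ) ^ (k + i) * t ≤ 4 ^ J / 4 * t := mul_le_mul_of_nonneg_right h2 hd0
    have h6 : 4 ^ J * (3 / 4 * t) ≤ 4 ^ J * 4 ^ (k + i) := by nlinarith
    have h7 := le_of_mul_le_mul_left h6 hJ
    linarith [show (0 : ℝ) < 4 ^ (k + i) by positivity]
  have h4 := dsq_ge v x
  have h5 : (2 : ℝ) / 5 ≤ 4 / Real.pi ^ 2 := by
    have h5 : Real.pi < 3.15 := Real.pi_lt_d2
    rw [div_le_div_iff₀ (by norm_num) (by positivity)]
    nlinarith [Real.pi_pos]
  have h6 : (nrm (v - x) : ℝ) ^ 2 ≤ (2 ^ (k + i + 1)) ^ 2 := by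
    have h7 : (2 : ℝ) / 5 * (nrm (v - x) : ℝ) ^ 2 ≤ dsq v x :=
      (mul_le_mul_of_nonneg_right h5 (sq_nonneg _)).trans h4
    have e : ((2 : ℝ) ^ (k + i + 1)) ^ 2 = 4 * 4 ^ (k + i) := by
      rw [← pow_mul, mul_comm (k + i + 1) 2, pow_mul, pow_succ]
      norm_num
      ring
    rw [e]
    nlinarith
  have h7 : (nrm (v - x) : ℝ) ≤ 2 ^ (k + i + 1) := by
    exact (pow_le_pow_iff_left₀ (Nat.cast_nonneg _) (by positivity) (by norm_num)).1 h6
  exact_mod_cast h7

/-- dissipation of the blocks of scale `2 ^ s` at level `g`, one environment, moving weight `w` -/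
noncomputable def CscP (A : Matrix (Tor N) (Tor N) ℝ) (W : Tor N → ℂ) (w : Tor N → ℝ) (g : ℝ)
    (ρ : ℕ) : ℝ :=
  ∑ z : Tor N, min (PhB A W (fB z ρ)) g / g * ∑ x, w x * lsB A W (fB z ρ) x

theorem CscP_nonneg {A : Matrix (Tor N) (Tor N) ℝ} (hA : A.IsSymm) {W : Tor N → ℂ}
    (hW : ∀ x, (W x).im < 0) {w : Tor N → ℝ} (hw : ∀ x, 0 ≤ w x) {g : ℝ} (hg : 0 < g) (ρ : ℕ) :
    0 ≤ CscP A W w g ρ :=
  Finset.sum_nonneg fun z _ => mul_nonneg (div_nonneg (le_min (PhB_nonneg hW _) hg.le) hg.le)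
    (Finset.sum_nonneg fun x _ => mul_nonneg (hw x) (lsB_nonneg hA hW _ _))

variable {A : Matrix (Tor N) (Tor N) ℝ} {W : Tor N → ℂ} (hA : A.IsSymm) (hW : ∀ x, (W x).im < 0)
  {J : ℕ} (om : Tor N → ℝ) (h0 : ∀ x, 0 ≤ om x) (h1 : ∀ x, om x ≤ 1)

/-- the heavy rows of `om_le`: much hot energy in the ball of radius `2 ^ i rad s` -/
def Hvy {Cs : ℝ} (k : Ker (datOf A W hA hW (fR N J) om h0 h1) ℕ Cs) (i : ℕ) (g : ℝ)
    (s : ℕ) (v : Tor N) : Prop :=
  g / (4 * cD i) < ∑ x ∈ univ.filter (fun x => (datOf A W hA hW (fR N J) om h0 h1).dd v x ≤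
    2 ^ i * k.rad s), (datOf A W hA hW (fR N J) om h0 h1).pw x * k.u s x

open Classical in
/-- **the mobile flux at heavy places is paid by the dissipation of the blocks** -/
theorem BH_le {Cs : ℝ} (k : Ker (datOf A W hA hW (fR N J) om h0 h1) ℕ Cs) {i : ℕ}
    (hSc : ∀ s ∈ k.Sc, s + i + 1 ≤ J)
    (hw : ∀ s ∈ k.Sc, ∀ x y, k.w s x y = uk J s (∑ j, (fR N J j x - fR N J j y) ^ 2))
    (hrad : ∀ s ∈ k.Sc, k.rad s ^ 2 = rho s) (hN : 12 * 2 ^ (J + 1) < N) {c1 g : ℝ}
    (hc1 : 0 < c1) (hg : 0 < g) (Mv : Finset (Tor N)) :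
    k.BH Mv c1 (Hvy hA hW om h0 h1 k i g) ≤ 3 / (cD i ^ 2 * c1 ^ 2) *
      ∑ s ∈ k.Sc, CscP A W (fun x => om x * -(W x).im) g (2 ^ (s + i + 2)) := by
  unfold Ker.BH
  rw [Finset.mul_sum]
  refine Finset.sum_le_sum fun s hs => ?_
  have hsJ := hSc s hs
  have hρ : 0 < 2 ^ (s + i + 2) := by positivity
  have hρN : 12 * 2 ^ (s + i + 2) < N := by
    have : 2 ^ (s + i + 2) ≤ 2 ^ (J + 1) := Nat.pow_le_pow_right (by norm_num) (by omega)
    omega
  -- the rows
  set R := (Mv.filter fun v => c1 ≤ k.u s v).filter fun v => Hvy hA hW om h0 h1 k i g s v with hR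
  have hrow : ∑ v ∈ Mv.filter (fun v => c1 ≤ k.u s v),
      (if Hvy hA hW om h0 h1 k i g s v then (datOf A W hA hW (fR N J) om h0 h1).om v * (datOf A W hA hW (fR N J) om h0 h1).pw v else 0) =
      ∑ v ∈ R, (om v * -(W v).im) * mm A W v := by
    rw [← Finset.sum_filter]
    refine Finset.sum_congr rfl fun v _ => ?_
    show om v * ((-(W v).im) * mm A W v) = _
    ring
  have hu : ∀ x, uU A W (k.w s) x = k.u s x := fun x => rfl
  have h2 := heavy_torus (U := k.w s) (c := cD i) (c1 := c1) (CF := g / (4 * cD i)) (Ac := g)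
    (ρ := 2 ^ (s + i + 2)) (h := 2 ^ (s + i + 1)) hA hW (fun x y => k.hw s x y) (cD_pos i).le
    hc1.le (by have := cD_pos i; positivity) hg.le hρ hρN (by rw [pow_succ 2 (s + i + 1)]; omega)
    (fun x y => by
      rw [hw s hs]
      exact uk_fR_le (by omega) x y)
    (w := fun x => om x * -(W x).im)
    (fun x => mul_nonneg (h0 x) (neg_nonneg.2 (hW x).le)) R
    (fun v hv => (mem_filter.1 (mem_filter.1 hv).1).2)
    (fun v hv => by
      have h3 : g / (4 * cD i) < ∑ x ∈ univ.filter (fun x => (datOf A W hA hW (fR N J) om h0 h1).dd v x ≤ 2 ^ i * k.rad s),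
        (datOf A W hA hW (fR N J) om h0 h1).pw x * k.u s x := (mem_filter.1 hv).2
      refine h3.le.trans ?_
      refine Finset.sum_le_sum_of_subset_of_nonneg ?_ fun x _ _ =>
        mul_nonneg (mul_nonneg (neg_nonneg.2 (hW x).le) (mm_pos hA hW x).le) (k.u_nonneg s x)
      intro x hx
      have h4 := (mem_filter.1 hx).2
      rw [mem_filter]
      refine ⟨mem_univ _, nrm_le_of_dd (J := J) (by omega) ?_⟩
      have h5 : (datOf A W hA hW (fR N J) om h0 h1).d2 v x ≤ (2 ^ i * k.rad s) ^ 2 := by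
        rw [← (datOf A W hA hW (fR N J) om h0 h1).dd_sq]
        exact pow_le_pow_left₀ ((datOf A W hA hW (fR N J) om h0 h1).dd_nonneg v x) h4 2
      rw [mul_pow, hrad s hs] at h5
      exact h5)
  have hmin : min (4 * cD i * (g / (4 * cD i))) g = g := by
    have : 4 * cD i * (g / (4 * cD i)) = g := by
      have := (cD_pos i).ne'
      field_simp
    rw [this, min_self]
  rw [hmin] at h2
  have hρ2 : k.rad s ^ 2 ≤ (((2 ^ (s + i + 2) : ℕ) : ℝ)) ^ 2 := by
    rw [hrad s hs]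
    refine (rho_le s).trans ?_
    have e1 : (((2 ^ (s + i + 2) : ℕ) : ℝ)) ^ 2 = 4 ^ (s + i + 2) := by
      push_cast
      rw [← pow_mul, mul_comm (s + i + 2) 2, pow_mul]
      norm_num
    rw [e1]
    exact pow_le_pow_right₀ (by norm_num) (by omega)
  rw [hrow]
  set Sr := ∑ v ∈ R, (om v * -(W v).im) * mm A W v with hSr
  have hSr0 : 0 ≤ Sr := Finset.sum_nonneg fun v _ =>
    mul_nonneg (mul_nonneg (h0 v) (neg_nonneg.2 (hW v).le)) (mm_pos hA hW v).le
  have hc := cD_pos i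
  have h6 : CscP A W (fun x => om x * -(W x).im) g (2 ^ (s + i + 2)) =
      (∑ z : Tor N, min (PhB A W (fB z (2 ^ (s + i + 2)))) g *
        ∑ x, (om x * -(W x).im) * lsB A W (fB z (2 ^ (s + i + 2))) x) / g := by
    unfold CscP
    rw [Finset.sum_div]
    refine Finset.sum_congr rfl fun z _ => ?_
    ring
  rw [h6]
  set X := ∑ z : Tor N, min (PhB A W (fB z (2 ^ (s + i + 2)))) g *
        ∑ x, (om x * -(W x).im) * lsB A W (fB z (2 ^ (s + i + 2))) x with hX
  calc k.rad s ^ 2 * Sr ≤ (((2 ^ (s + i + 2) : ℕ) : ℝ)) ^ 2 * Sr :=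
        mul_le_mul_of_nonneg_right hρ2 hSr0
    _ = ((((2 ^ (s + i + 2) : ℕ) : ℝ)) ^ 2 * (cD i ^ 2 * c1 ^ 2 * g) * Sr) /
          (cD i ^ 2 * c1 ^ 2 * g) := by
        field_simp
    _ ≤ (3 * X) / (cD i ^ 2 * c1 ^ 2 * g) := div_le_div_of_nonneg_right h2 (by positivity)
    _ = _ := by
        field_simp

end torus

end P365T2.H179
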