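import Vale.Agent.P365.T2.H629.ErrSmall
import Vale.Agent.P365.T2.H912.XThm
import Vale.Agent.P365.T2.H179.Adm

/-!
# P365 T2: the error functional with the small tori (helper179)

`ErrY := ErrX + 24 * 2 ^ nJ / N`: at `η = 1` (the states) the torus may be shorter than the scales
of the count; there `ErrY ≥ 1`.  In a stage with `η` small `ErrY` is small by `Ok.N_ge`.
-/

set_option linter.all false

namespace P365T2.H179

open P365L P365O P365T1 Vale.Agent.P365.J376 P365T2.H213 P365T2.X629 MeasureTheory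

variable {N : ℕ} [NeZero N]

/-- the error functional -/
noncomputable def ErrY (W : StW N) (E C1 τ : ℝ) : ℝ :=
  ErrX W E C1 τ + 24 * 2 ^ nJ C1 W.S / N

theorem ErrX_le_ErrY (W : StW N) (E C1 τ : ℝ) : ErrX W E C1 τ ≤ ErrY W E C1 τ := by
  unfold ErrY
  have : (0 : ℝ) ≤ 24 * 2 ^ nJ C1 W.S / N := by positivity
  linarith

theorem ErrY_nonneg {W : StW N} {lam E C1 η : ℝ} (h : W.Ok lam E C1 η) (D τ : ℝ) :
    0 ≤ ErrY W E D τ := (P365T2.X629.ErrX_nonneg h D τ).trans (ErrX_le_ErrY W E D τ)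

theorem one_le_ErrY {W : StW N} {lam E C1 η : ℝ} (h : W.Ok lam E C1 η) {D : ℝ} (τ : ℝ)
    (hN : N ≤ 24 * 2 ^ nJ D W.S) : 1 ≤ ErrY W E D τ := by
  have h1 := P365T2.X629.ErrX_nonneg h D τ
  have hN0 : (0 : ℝ) < N := Nat.cast_pos.2 (Nat.pos_of_ne_zero (NeZero.ne N))
  have h2 : (1 : ℝ) ≤ 24 * 2 ^ nJ D W.S / N := by
    rw [le_div_iff₀ hN0, one_mul]
    exact_mod_cast hN
  unfold ErrY
  linarith

/-- small tori do not occur in long stages -/
theorem small_torus {C1 δ : ℝ} (hC1 : 0 < C1) (hδ : 0 < δ) : ∃ η₀ : ℝ, 0 < η₀ ∧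
    ∀ {lam E : ℝ} {N : ℕ} [NeZero N] (W : StW N) (η : ℝ), 0 < η → η ≤ η₀ → W.Ok lam E C1 η →
      (24 : ℝ) * 2 ^ nJ C1 W.S / N ≤ δ := by
  refine ⟨min (min 1 (1 / (C1 + 1))) (δ / 96), lt_min (lt_min one_pos (by positivity))
    (by positivity), fun {lam E N} _ W η hη hη0 hok => ?_⟩
  have hη1 : η ≤ 1 := (hη0.trans (min_le_left _ _)).trans (min_le_left _ _)
  have hη2 : η ≤ 1 / (C1 + 1) := (hη0.trans (min_le_left _ _)).trans (min_le_right _ _)
  have hη3 : η ≤ δ / 96 := hη0.trans (min_le_right _ _)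
  have hS1 := hok.S_ge
  have hS : 1 ≤ W.S := le_trans (by rw [le_div_iff₀ hη]; linarith) hS1
  have hS0 : 0 < W.S := by linarith
  have hN0 : (0 : ℝ) < N := Nat.cast_pos.2 (Nat.pos_of_ne_zero (NeZero.ne N))
  -- `2 ^ nJ ≤ 4 exp (C1 S)`
  have h1 : (2 : ℝ) ^ nJ C1 W.S ≤ 4 * Real.exp (C1 * W.S) := by
    have e1 : (2 : ℝ) ^ nJ C1 W.S = Real.exp (Real.log 2 * nJ C1 W.S) := by
      rw [← Real.rpow_natCast, Real.rpow_def_of_pos (by norm_num)]
    have e2 : (4 : ℝ) = Real.exp (Real.log 2 * 2) := by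
      rw [Real.exp_mul, Real.exp_log (by norm_num)]
      norm_num
    have e3 := nJ_le hC1.le hS0.le
    have e4 : 0 < Real.log 2 := Real.log_pos (by norm_num)
    have e5 : Real.log 2 ≤ 1 := by
      have := Real.log_two_lt_d9
      linarith
    rw [e1, e2, ← Real.exp_add]
    refine Real.exp_le_exp.2 ?_
    have e6 : 0 ≤ C1 * W.S := by positivity
    nlinarith
  -- `N ≥ exp (C1 S + S)`
  have h2 : Real.exp (C1 * W.S) * Real.exp W.S ≤ N := by
    rw [← Real.exp_add]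
    refine le_trans (Real.exp_le_exp.2 ?_) hok.N_ge
    rw [le_div_iff₀ hη]
    have : η * (C1 + 1) ≤ 1 := by rwa [le_div_iff₀ (by positivity)] at hη2
    nlinarith
  have h3 : 1 / η ≤ Real.exp W.S := by
    have := Real.add_one_le_exp W.S
    linarith
  have hE := Real.exp_pos (C1 * W.S)
  calc (24 : ℝ) * 2 ^ nJ C1 W.S / N ≤ 24 * (4 * Real.exp (C1 * W.S)) /
        (Real.exp (C1 * W.S) * Real.exp W.S) := by
        refine div_le_div₀ (by positivity) (mul_le_mul_of_nonneg_left h1 (by norm_num))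
          (by positivity) h2
    _ = 96 / Real.exp W.S := by
        field_simp
        norm_num
    _ ≤ 96 / (1 / η) := div_le_div_of_nonneg_left (by norm_num) (by positivity) h3
    _ = 96 * η := by field_simp
    _ ≤ δ := by linarith

/-- **`ErrY` is small in long stages** -/
theorem errY_small {C1 δ : ℝ} (hC1 : 0 < C1) (hδ : 0 < δ) : ∃ η₀ : ℝ, 0 < η₀ ∧
    ∀ {lam E : ℝ} {N : ℕ} [NeZero N] (W : StW N) (η : ℝ), 0 < η → η ≤ η₀ → W.Ok lam E C1 η →
      ∀ τ ∈ Set.Icc 0 W.S, ErrY W E C1 τ ≤ δ := by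
  obtain ⟨η1, hη1, h1⟩ := err_small hC1 (show 0 < δ / 2 by positivity)
  obtain ⟨η2, hη2, h2⟩ := small_torus hC1 (show 0 < δ / 2 by positivity)
  refine ⟨min η1 η2, lt_min hη1 hη2, fun {lam E N} _ W η hη hη0 hok τ hτ => ?_⟩
  have a1 := h1 W η hη (hη0.trans (min_le_left _ _)) hok τ hτ
  have a2 := h2 W η hη (hη0.trans (min_le_right _ _)) hok
  unfold ErrY
  linarith

open P365T2.H912 in
/-- the functional of stage and time -/
noncomputable def FErrY (E C1 : ℝ) : Fn := fun N _ W τ => ErrY W E C1 τ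

open P365T2.H912 in
/-- **`ErrPart` for `ErrY`** -/
theorem errPartY {lam E C1 : ℝ} (hC1 : 0 < C1) : ErrPart lam E C1 (FErrY E C1) := by
  intro ε hε
  obtain ⟨η₀, hη₀, h1⟩ := errY_small hC1 hε
  exact ⟨η₀, hη₀, fun N _ W _ h τ hτ => h1 W η₀ hη₀ le_rfl h τ ⟨hτ.1.le, hτ.2.le⟩⟩

/-- averages only see the environments `WV E (e l) v` -/
theorem AvG_congr_WV {ι : Type*} [Fintype ι] [DecidableEq ι] {Λ : Type*} [Fintype Λ] {p : Λ → ℝ}
    {ν : Λ → Measure ℝ} {E : ℝ} {e : (ι → Λ) → ι → ℝ} {G G' : (ι → Λ) → (ι → ℂ) → ℝ}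
    (h : ∀ l v, G l (WV E (e l) v) = G' l (WV E (e l) v)) : AvG p ν E e G = AvG p ν E e G' := by
  unfold AvG Ex
  refine Finset.sum_congr rfl fun l _ => ?_
  congr 1
  exact integral_congr_ae (Filter.Eventually.of_forall fun v => h l v)

end P365T2.H179
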