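import Vale.Agent.P365.T2.H179.Count
import Vale.Agent.P365.T2.OneTop905

/-!
# P365 T2, field `om`: the pathwise inequality with all constants (helper179)

905's `om_top` over 320's `kerR`, 784/179's count `BH_le`, 844's `Pos`: `om_path`.
-/

set_option linter.all false

namespace P365T2.H179

open P365L P365O P365T1 Vale.Agent.P365.J376 Finset
open P365T2.H37 (hk wk uk rho)
open P365T2.H320U P365T2.H320K P365T2.H784 P365T2.H905

/-- the hot partners carry at most the whole energy -/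
theorem Om_le_En {ι κ : Type*} [Fintype ι] [Fintype κ] (D : Dat ι κ) (Mv Z : Finset ι)
    (θ ε : ℝ) : Om D Mv Z θ ε ≤ D.En := by
  classical
  rw [Dat.En_eq]
  unfold Om
  refine (sum_le_sum fun v _ => ?_).trans (sum_le_sum_of_subset_of_nonneg (subset_univ _)
    fun v _ _ => mul_nonneg (D.pw_pos v).le (D.V_nonneg v))
  have h1 : ∑ x, (if x ∈ Z ∨ D.kap v x < ε then D.P v x else 0) ≤ 1 := by
    rw [← D.sum_P v]
    refine sum_le_sum fun x _ => ?_
    split_ifs
    · exact le_rfl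
    · exact D.P_nonneg v x
  have h2 : 0 ≤ ∑ x, (if x ∈ Z ∨ D.kap v x < ε then D.P v x else 0) := by
    refine sum_nonneg fun x _ => ?_
    split_ifs
    · exact D.P_nonneg v x
    · exact le_rfl
  have h3 : 0 ≤ D.pw v * D.V v := mul_nonneg (D.pw_pos v).le (D.V_nonneg v)
  have h4 := D.hom1 v
  have h5 := D.hom0 v
  calc D.om v * (D.pw v * D.V v) * ∑ x, (if x ∈ Z ∨ D.kap v x < ε then D.P v x else 0)
      ≤ D.om v * (D.pw v * D.V v) * 1 :=
        mul_le_mul_of_nonneg_left h1 (mul_nonneg h5 h3)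
    _ ≤ 1 * (D.pw v * D.V v) := by
        rw [mul_one]
        exact mul_le_mul_of_nonneg_right h4 h3
    _ = _ := one_mul _

section torus

variable {N : ℕ} [NeZero N] {A : Matrix (Tor N) (Tor N) ℝ} {W : Tor N → ℂ} (hA : A.IsSymm)
  (hW : ∀ x, (W x).im < 0) {J : ℕ} (om : Tor N → ℝ) (h0 : ∀ x, 0 ≤ om x) (h1 : ∀ x, om x ≤ 1)

theorem datOf_d2 (x y : Tor N) : (datOf A W hA hW (fR N J) om h0 h1).d2 x y =
    ∑ j, (fR N J j x - fR N J j y) ^ 2 := rfl

theorem tt_PhiR (x y : Tor N) : P365T2.H844.tt (PhiR N J) x y =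
    (datOf A W hA hW (fR N J) om h0 h1).d2 x y := by
  rw [datOf_d2, fR_spec]
  exact ttR_eq x y

/-- the count over 320's kernels: scales `s < J - i` -/
theorem BH_kerR_le {i : ℕ} (hN : 12 * 2 ^ (J + 1) < N) {c1 g : ℝ}
    (hc1 : 0 < c1) (hg : 0 < g) (Mv : Finset (Tor N)) :
    (kerR (datOf A W hA hW (fR N J) om h0 h1) J).BH Mv c1
      (fun s v => s < J - i ∧ Hvy hA hW om h0 h1
        (kerR (datOf A W hA hW (fR N J) om h0 h1) J) i g s v) ≤ 3 / (cD i ^ 2 * c1 ^ 2) *
      ∑ s ∈ range (J - i), CscP A W (fun x => om x * -(W x).im) g (2 ^ (s + i + 2)) := by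
  classical
  set D := datOf A W hA hW (fR N J) om h0 h1 with hD
  -- the kernels of the low scales
  let k' : Ker D ℕ 1 :=
    { Sc := range (J - i)
      rad := (kerR D J).rad
      w := (kerR D J).w
      hr := fun s _ => Real.sqrt_pos.2 (P365T2.H37.rho_pos s)
      hw := (kerR D J).hw
      hs := fun x y => by
        refine le_trans ?_ ((kerR D J).hs x y)
        refine sum_le_sum_of_subset_of_nonneg (fun s hs => ?_) fun s _ _ =>
          mul_nonneg (sq_nonneg _) ((kerR D J).hw s x y)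
        have := mem_range.1 hs
        rw [kerR_Sc, mem_range]
        omega }
  have h2 := BH_le hA hW om h0 h1 k' (i := i)
    (fun s hs => by have := mem_range.1 hs; omega)
    (fun s _ x y => rfl) (fun s _ => kerR_rad_sq D J s) hN hc1 hg Mv
  refine le_trans (le_of_eq ?_) h2
  unfold Ker.BH
  rw [kerR_Sc]
  have hsub : range (J - i) ⊆ range (J + 2) := range_subset_range.2 (by omega)
  rw [← sum_subset hsub]
  · refine sum_congr rfl fun s hs => ?_
    have hs' := mem_range.1 hs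
    show (kerR D J).rad s ^ 2 * _ = (kerR D J).rad s ^ 2 * _
    congr 1
    refine sum_congr rfl fun v _ => ?_
    by_cases hv : Hvy hA hW om h0 h1 k' i g s v
    · exact (if_pos ⟨hs', hv⟩).trans (if_pos hv).symm
    · exact (if_neg fun h => hv h.2).trans (if_neg hv).symm
  · intro s _ hs
    have hs' : ¬ s < J - i := fun h => hs (mem_range.2 h)
    refine mul_eq_zero_of_right _ (sum_eq_zero fun v _ => ?_)
    exact if_neg fun h => hs' h.1

include hA hW in
theorem Pos844_nonneg (T : ℝ) : 0 ≤ P365T2.H844.Pos (PhiR N J) (P365T2.H844.TT A W)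
    (Real.exp (-T)) J := by
  have h := Pos_le (D := datOf A W hA hW (fR N J) (fun _ => 0) (fun _ => le_rfl)
    (fun _ => zero_le_one)) (Φ := PhiR N J) (Q := P365T2.H844.TT A W)
    (tt_PhiR hA hW _ _ _) (fun x y => rfl) (Real.exp_pos (-T)) J ∅
  refine le_trans (le_of_eq ?_) h
  unfold Ker.Pos
  simp

theorem BadE_nonneg' {ι κ : Type*} [Fintype ι] [Fintype κ] (D : Dat ι κ) (Z : Finset ι) :
    0 ≤ Ker.BadE D Z := by
  unfold Ker.BadE
  refine sum_nonneg fun x _ => ?_
  exact mul_nonneg (D.pw_pos x).le (D.V_nonneg x)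

end torus

/-- **(om), pathwise, all constants** -/
theorem om_path {θ : ℝ} (hθ : 0 < θ) (hθ1 : θ ≤ 1) {k : ℝ} (hk1 : 1 ≤ k) :
    ∃ i : ℕ, ∃ C' T₀ : ℝ, 2 ≤ C' ∧ 1 ≤ T₀ ∧ ∀ T : ℝ, T₀ ≤ T → ∀ g : ℝ, 1 ≤ g →
      ∀ ε : ℝ, 0 < ε → ε ≤ 1 → ∀ {N : ℕ} [NeZero N] {J : ℕ}, i + 1 ≤ J →
      12 * 2 ^ (J + 1) < N → ∀ {A : Matrix (Tor N) (Tor N) ℝ} {W : Tor N → ℂ} (hA : A.IsSymm)
        (hW : ∀ x, (W x).im < 0) (om : Tor N → ℝ) (h0 : ∀ x, 0 ≤ om x) (h1 : ∀ x, om x ≤ 1)
        (Z : Finset (Tor N)),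
      Om (datOf A W hA hW (fR N J) om h0 h1) univ Z θ ε ≤
        (4 / θ + 2) / k * (P365T2.H844.Pos (PhiR N J) (P365T2.H844.TT A W) (Real.exp (-T)) J +
          (datOf A W hA hW (fR N J) om h0 h1).En) +
        C' * (ε * g) * (datOf A W hA hW (fR N J) om h0 h1).En +
        C' * ∑ s ∈ range (J - i), CscP A W (fun x => om x * -(W x).im) g (2 ^ (s + i + 2)) +
        C' * Ker.BadE (datOf A W hA hW (fR N J) om h0 h1) Z +
        C' * ((∑ v, ∑ x, (-(W v).im) * (-(W x).im) * KK A W v x * dsq v x ^ 2) / 4 ^ J) := by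
  set c1 : ℝ := θ / 144 with hc1
  have hc10 : 0 < c1 := by positivity
  obtain ⟨q0, hq0, t0, ht0, hq⟩ := Ker.posFam_log.2 k c1 hc10
  obtain ⟨i, hi⟩ := pow_unbounded_of_one_lt k (one_lt_two : (1 : ℝ) < 2)
  have hcD := cD_pos i
  set a1 : ℝ := 4 / (θ * q0) with ha1
  set a2 : ℝ := 1 / (2 * cD i * q0) with ha2
  set a3 : ℝ := 12 / (θ * (cD i ^ 2 * c1 ^ 2)) with ha3
  set a4 : ℝ := 64 * 4 ^ (i + 1) / (θ * c1) with ha4
  have h1 : 0 < a1 := by positivity
  have h2 : 0 < a2 := by positivity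
  have h3 : 0 < a3 := by positivity
  have h4 : 0 < a4 := by positivity
  refine ⟨i, 2 + a1 + a2 + a3 + a4, max 1 (-Real.log t0), by linarith, le_max_left _ _, ?_⟩
  intro T hT g hg ε hε hε1 N _ J hJ hN A W hA hW om o0 o1 Z
  set C' := 2 + a1 + a2 + a3 + a4 with hC'
  set D := datOf A W hA hW (fR N J) om o0 o1 with hD
  have hEn : 0 ≤ D.En := by
    rw [Dat.En_eq]
    exact sum_nonneg fun v _ => mul_nonneg (D.pw_pos v).le (D.V_nonneg v)
  have hPos : 0 ≤ P365T2.H844.Pos (PhiR N J) (P365T2.H844.TT A W) (Real.exp (-T)) J :=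
    Pos844_nonneg hA hW T
  have hBad : 0 ≤ Ker.BadE D Z := BadE_nonneg' D Z
  have hCsc : 0 ≤ ∑ s ∈ range (J - i),
      CscP A W (fun x => om x * -(W x).im) g (2 ^ (s + i + 2)) :=
    sum_nonneg fun s _ => CscP_nonneg hA hW
      (fun x => mul_nonneg (o0 x) (neg_nonneg.2 (hW x).le)) (by linarith) _
  set M4 := ∑ v, ∑ x, (-(W v).im) * (-(W x).im) * KK A W v x * dsq v x ^ 2 with hM4
  have hK : ∀ v x, 0 ≤ (-(W v).im) * (-(W x).im) * KK A W v x := fun v x =>
    mul_nonneg (mul_nonneg (neg_nonneg.2 (hW v).le) (neg_nonneg.2 (hW x).le)) (KK_nonneg v x)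
  have hM40 : 0 ≤ M4 := sum_nonneg fun v _ => sum_nonneg fun x _ =>
    mul_nonneg (hK v x) (sq_nonneg _)
  have h4J : (0 : ℝ) < 4 ^ J := by positivity
  have hk0 : 0 < k := by linarith
  have hεg : 0 ≤ ε * g := by positivity
  have t1 : 0 ≤ (4 / θ + 2) / k * (P365T2.H844.Pos (PhiR N J) (P365T2.H844.TT A W)
      (Real.exp (-T)) J + D.En) := mul_nonneg (by positivity) (add_nonneg hPos hEn)
  have t3 : 0 ≤ C' * ∑ s ∈ range (J - i),
      CscP A W (fun x => om x * -(W x).im) g (2 ^ (s + i + 2)) :=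
    mul_nonneg (by positivity) hCsc
  have t4 : 0 ≤ C' * Ker.BadE D Z := mul_nonneg (by positivity) hBad
  have t5 : 0 ≤ C' * (M4 / 4 ^ J) := by positivity
  rcases le_or_gt ε (1 / 2) with hε2 | hε2
  · -- the main case
    have hJ1 : 1 ≤ J := by omega
    have e1 : ∀ x y, D.d2 x y = 0 ∨ 1 ≤ D.d2 x y := fun x y => by
      rw [← tt_PhiR hA hW om o0 o1]
      exact ttR_or hJ1 x y
    have e2 : ∀ x y, D.d2 x y ≤ 4 ^ J := fun x y => by
      rw [← tt_PhiR hA hW om o0 o1]
      exact ttR_le x y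
    obtain ⟨sv, hsv⟩ := scl D e1 e2 hθ univ
    have hT0 : Real.exp (-T) ≤ t0 := by
      have := (le_max_right _ _).trans hT
      rw [← Real.exp_log ht0]
      exact Real.exp_le_exp.2 (by linarith)
    have h5 := om_top D (J := J) (k0 := J - i) (by omega) (by omega) (Mv := univ) (Z := Z)
      (θ := θ) (c1 := c1) (sv := sv)
      (pos := fun a b => (a - b) * Real.log ((a + Real.exp (-T)) / (b + Real.exp (-T))))
      (q0 := q0) (L := 2 ^ i) (CF := g / (4 * cD i)) (M := k) (ε := ε) hθ hc10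
      (by positivity) hk0 hq0 (by positivity) hε hε2 hsv
      (fun a b ha hb => Ker.posFam_log.1 _ a b (Real.exp_pos _) ha hb)
      (fun a b ha hb hb' => hq _ a b (Real.exp_pos _) hT0 ha hb hb')
      (Hvy hA hW om o0 o1 (kerR D J) i g) (fun s _ v h => h)
      (fun s v => s < J - i ∧ Hvy hA hW om o0 o1 (kerR D J) i g s v)
      (fun s v hs h => ⟨hs, h⟩)
    have h6 := Pos_le (D := D) (Φ := PhiR N J) (Q := P365T2.H844.TT A W)
      (tt_PhiR hA hW _ _ _) (fun x y => rfl) (Real.exp_pos (-T)) J univ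
    have h7 := BH_kerR_le hA hW om o0 o1 (J := J) (i := i) hN hc10
      (show 0 < g by linarith) univ
    -- the fourth moment
    have h8 : ∑ v, ∑ x, D.e v * D.e x * D.K v x * D.d2 v x ^ 2 ≤ 16 * M4 := by
      rw [hM4, mul_sum]
      refine sum_le_sum fun v _ => ?_
      rw [mul_sum]
      refine sum_le_sum fun x _ => ?_
      have g1 : D.d2 v x ≤ 4 * dsq v x := fR_le_phi v x
      have g2 := D.d2_nonneg v x
      have g3 : D.d2 v x ^ 2 ≤ 16 * dsq v x ^ 2 := by
        calc D.d2 v x ^ 2 ≤ (4 * dsq v x) ^ 2 := pow_le_pow_left₀ g2 g1 2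
          _ = _ := by ring
      calc D.e v * D.e x * D.K v x * D.d2 v x ^ 2
          ≤ ((-(W v).im) * (-(W x).im) * KK A W v x) * (16 * dsq v x ^ 2) :=
            mul_le_mul_of_nonneg_left g3 (hK v x)
        _ = _ := by ring
    have b1 : 4 / (θ * k) * (kerR D J).Pos (fun a b => (a - b) *
        Real.log ((a + Real.exp (-T)) / (b + Real.exp (-T)))) univ ≤
        (4 / θ + 2) / k * P365T2.H844.Pos (PhiR N J) (P365T2.H844.TT A W)
          (Real.exp (-T)) J := by
      refine mul_le_mul ?_ h6 ?_ (by positivity)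
      · rw [show 4 / (θ * k) = 4 / θ / k by field_simp]
        exact div_le_div_of_nonneg_right (by linarith) hk0.le
      · have h := Ker.Pos_nonneg (k := kerR D J) (pos := fun a b => (a - b) *
          Real.log ((a + Real.exp (-T)) / (b + Real.exp (-T)))) (Mv := univ)
          (fun a b ha hb => Ker.posFam_log.1 _ a b (Real.exp_pos _) ha hb)
        exact h
    have b2 : 2 / 2 ^ i * D.En ≤ (4 / θ + 2) / k * D.En := by
      refine mul_le_mul_of_nonneg_right ?_ hEn
      calc (2 : ℝ) / 2 ^ i ≤ 2 / k := div_le_div_of_nonneg_left (by norm_num) hk0 hi.le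
        _ ≤ _ := div_le_div_of_nonneg_right (by
          have : 0 < 4 / θ := by positivity
          linarith) hk0.le
    have b3 : 4 / (θ * q0) * Ker.BadE D Z ≤ C' * Ker.BadE D Z :=
      mul_le_mul_of_nonneg_right (by rw [hC']; linarith) hBad
    have b4 : 2 * ε * (g / (4 * cD i)) / q0 * D.En ≤ C' * (ε * g) * D.En := by
      have e : 2 * ε * (g / (4 * cD i)) / q0 = a2 * (ε * g) := by
        rw [ha2]
        field_simp
        norm_num
      rw [e]
      refine mul_le_mul_of_nonneg_right (mul_le_mul_of_nonneg_right ?_ hεg) hEn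
      rw [hC']; linarith
    have b5 : 4 / θ * (kerR D J).BH univ c1
        (fun s v => s < J - i ∧ Hvy hA hW om o0 o1 (kerR D J) i g s v) ≤
        C' * ∑ s ∈ range (J - i),
          CscP A W (fun x => om x * -(W x).im) g (2 ^ (s + i + 2)) := by
      refine (mul_le_mul_of_nonneg_left h7 (by positivity)).trans ?_
      rw [← mul_assoc, show 4 / θ * (3 / (cD i ^ 2 * c1 ^ 2)) = a3 by
        rw [ha3]; field_simp; norm_num]
      refine mul_le_mul_of_nonneg_right ?_ hCsc
      rw [hC']; linarith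
    have b6 : 4 / (θ * (c1 * 4 ^ (J - i - 1))) *
        ∑ v, ∑ x, D.e v * D.e x * D.K v x * D.d2 v x ^ 2 ≤ C' * (M4 / 4 ^ J) := by
      refine (mul_le_mul_of_nonneg_left h8 (by positivity)).trans ?_
      have e3 : (4 : ℝ) ^ J = 4 ^ (J - i - 1) * 4 ^ (i + 1) := by
        rw [← pow_add]
        congr 1
        omega
      have e : 4 / (θ * (c1 * 4 ^ (J - i - 1))) * (16 * M4) = a4 * (M4 / 4 ^ J) := by
        rw [ha4, e3]
        field_simp
        ring
      rw [e]
      refine mul_le_mul_of_nonneg_right ?_ (by positivity)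
      rw [hC']; linarith
    linarith
  · have h5 := Om_le_En D univ Z θ ε
    have h6 : D.En ≤ C' * (ε * g) * D.En := by
      have h7 : 1 ≤ C' * (ε * g) := by
        have h8 : 1 / 2 ≤ ε * g := hε2.le.trans (le_mul_of_one_le_right hε.le hg)
        have h9 : 2 ≤ C' := by rw [hC']; linarith
        calc (1 : ℝ) = 2 * (1 / 2) := by norm_num
          _ ≤ C' * (ε * g) := mul_le_mul h9 h8 (by norm_num) (by linarith)
      calc D.En = 1 * D.En := (one_mul _).symm
        _ ≤ _ := mul_le_mul_of_nonneg_right h7 hEn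
    linarith

end P365T2.H179
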