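import Mathlib
import Vale.Agent.P365.T2.H213.GoodTime

set_option linter.all false

/-!
# P365 T2, row X-ORDER: the order of the constants in the one-time theorem ONE (helper179)

`St` = the type of all states (stage, time `τ`, torus, floor ...), every field is a real functional
(per site, averaged over labels and potentials):

* `En` energy, `Gr` growth rate of the logarithmic energy, `Loss` dissipation of the energy,
  `Err` hub errors;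
* `Pos T` the positive part of the one-body entropy production at truncation level `T`;
* `Cn g` = `g` times the energy of mobile rows in blocks of local energy `> g`
  (so that it is bounded uniformly in `g`);
* `Mob θ` = energy of the rows `v` with `l_v ^ 2 ≥ θ V_v`;
* `Om θ ε` = `∑_{Mob} π_v V_v P_v (κ < ε)`;
* `Bad θ A` = energy of the bad rows, `Sm θ A ε₁ δ ε₂` = `J_R / ε₁ + M2 + Lam_R / (ε₁ ε₂)`.

The chain is `c → θ → A, (k₀, L₀) → g₁ → ε₁ → δ → (k, L) → g₂ → ε₂ → Loss, Err`.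
-/

namespace P365T2.H179

/-- the six inequalities that ONE consumes, with their quantifiers -/
structure OneFacts (St : Type*) (En Gr Loss Err : St → ℝ) (Pos Cn Mob : ℝ → St → ℝ)
    (Om Bad : ℝ → ℝ → St → ℝ) (Sm : ℝ → ℝ → ℝ → ℝ → ℝ → St → ℝ) : Prop where
  En0 : ∀ s, 0 ≤ En s
  Loss0 : ∀ s, 0 ≤ Loss s
  Err0 : ∀ s, 0 ≤ Err s
  Cn0 : ∀ g s, 0 ≤ Cn g s
  /-- mobility: non-mobile rows contribute little to the growth -/
  mob : ∀ ρ : ℝ, 0 < ρ → ∃ θ : ℝ, 0 < θ ∧ ∃ C : ℝ, 0 < C ∧ ∀ s, Gr s ≤ C * Mob θ s + ρ * En s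
  /-- the deterministic static inequality -/
  det : ∀ θ : ℝ, 0 < θ → ∃ C : ℝ, 0 < C ∧ ∀ A : ℝ, 1 ≤ A → ∀ ε₁ : ℝ, 0 < ε₁ → ∀ δ : ℝ, 0 < δ →
    ∀ ε₂ : ℝ, 0 < ε₂ → ∀ s, Mob θ s ≤
      C * (Sm θ A ε₁ δ ε₂ s + δ / ε₁ * En s + Bad θ A s + Om θ ε₁ s + Om θ ε₂ s / δ)
  /-- bad rows carry little energy -/
  bad : ∀ θ : ℝ, 0 < θ → ∀ ρ : ℝ, 0 < ρ → ∃ A : ℝ, 1 ≤ A ∧ ∃ C : ℝ, 0 < C ∧
    ∀ s, Bad θ A s ≤ ρ * En s + C * Err s
  /-- resampling of the strong part -/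
  res : ∀ θ : ℝ, 0 < θ → ∀ A : ℝ, 1 ≤ A → ∀ ε₁ : ℝ, 0 < ε₁ → ∀ δ : ℝ, 0 < δ →
    ∀ ε₂ : ℝ, 0 < ε₂ → ∃ C : ℝ, 0 < C ∧ ∀ s, Sm θ A ε₁ δ ε₂ s ≤ C * (Loss s + Err s)
  /-- quiet partners + far partners + count of the weak hot partners -/
  om : ∀ θ : ℝ, 0 < θ → ∃ C : ℝ, 0 < C ∧ ∀ k : ℝ, 1 ≤ k → ∀ L : ℝ, 1 ≤ L → ∃ C' : ℝ, 0 < C' ∧
    ∀ T : ℝ, k ≤ T → ∀ g : ℝ, 1 ≤ g → ∀ ε : ℝ, 0 < ε → ∀ s, Om θ ε s ≤
      C / k * Pos T s + C / L * En s + C' * (ε * g) * En s + C' / g * Cn g s + C' * Err s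

variable {St : Type*} {En Gr Loss Err : St → ℝ} {Pos Cn Mob : ℝ → St → ℝ}
    {Om Bad : ℝ → ℝ → St → ℝ} {Sm : ℝ → ℝ → ℝ → ℝ → ℝ → St → ℝ}

/-- the weak content is small: `ρ → k, L → g → ε` -/
theorem OneFacts.om_small (h : OneFacts St En Gr Loss Err Pos Cn Mob Om Bad Sm) {θ : ℝ}
    (hθ : 0 < θ) {C1 K : ℝ} (hC1 : 0 < C1) (hK : 0 < K) {ρ : ℝ} (hρ : 0 < ρ) :
    ∃ k : ℝ, 1 ≤ k ∧ ∃ g : ℝ, 1 ≤ g ∧ ∃ ε : ℝ, 0 < ε ∧ ∃ η : ℝ, 0 < η ∧ ∀ T : ℝ, k ≤ T →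
      ∀ s, En s ≤ C1 → Pos T s ≤ K → Cn g s ≤ K → Err s ≤ η → Om θ ε s ≤ ρ := by
  obtain ⟨C, hC, hom⟩ := h.om θ hθ
  set k : ℝ := 1 + 5 * C * K / ρ with hk
  have hk1 : 1 ≤ k := by
    have : 0 ≤ 5 * C * K / ρ := by positivity
    linarith
  set L : ℝ := 1 + 5 * C * C1 / ρ with hL
  have hL1 : 1 ≤ L := by
    have : 0 ≤ 5 * C * C1 / ρ := by positivity
    linarith
  obtain ⟨C', hC', hom⟩ := hom k hk1 L hL1
  set g : ℝ := 1 + 5 * C' * K / ρ with hg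
  have hg1 : 1 ≤ g := by
    have : 0 ≤ 5 * C' * K / ρ := by positivity
    linarith
  have hk0 : 0 < k := by linarith
  have hL0 : 0 < L := by linarith
  have hg0 : 0 < g := by linarith
  set ε : ℝ := ρ / (5 * C' * g * C1) with hε
  have hε0 : 0 < ε := by positivity
  set η : ℝ := ρ / (5 * C') with hη
  have hη0 : 0 < η := by positivity
  refine ⟨k, hk1, g, hg1, ε, hε0, η, hη0, fun T hT s h1 h2 h3 h4 => ?_⟩
  have e0 := hom T hT g hg1 ε hε0 s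
  have e1 : C / k * Pos T s ≤ ρ / 5 := by
    have : C / k * Pos T s ≤ C / k * K := mul_le_mul_of_nonneg_left h2 (by positivity)
    have h5 : C / k * K ≤ ρ / 5 := by
      rw [div_mul_eq_mul_div, div_le_div_iff₀ hk0 (by norm_num)]
      have : ρ * k = ρ + 5 * C * K := by
        rw [hk]
        field_simp
      nlinarith
    linarith
  have e2 : C / L * En s ≤ ρ / 5 := by
    have : C / L * En s ≤ C / L * C1 := mul_le_mul_of_nonneg_left h1 (by positivity)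
    have h5 : C / L * C1 ≤ ρ / 5 := by
      rw [div_mul_eq_mul_div, div_le_div_iff₀ hL0 (by norm_num)]
      have : ρ * L = ρ + 5 * C * C1 := by
        rw [hL]
        field_simp
      nlinarith
    linarith
  have e3 : C' * (ε * g) * En s ≤ ρ / 5 := by
    have h5 : C' * (ε * g) * En s ≤ C' * (ε * g) * C1 :=
      mul_le_mul_of_nonneg_left h1 (by positivity)
    have h6 : C' * (ε * g) * C1 = ρ / 5 := by
      rw [hε]
      field_simp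
    linarith
  have e4 : C' / g * Cn g s ≤ ρ / 5 := by
    have : C' / g * Cn g s ≤ C' / g * K := mul_le_mul_of_nonneg_left h3 (by positivity)
    have h5 : C' / g * K ≤ ρ / 5 := by
      rw [div_mul_eq_mul_div, div_le_div_iff₀ hg0 (by norm_num)]
      have : ρ * g = ρ + 5 * C' * K := by
        rw [hg]
        field_simp
      nlinarith
    linarith
  have e5 : C' * Err s ≤ ρ / 5 := by
    have h5 : C' * Err s ≤ C' * η := mul_le_mul_of_nonneg_left h4 hC'.le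
    have h6 : C' * η = ρ / 5 := by
      rw [hη]
      field_simp
    linarith
  linarith

/-- **the one-time theorem, order of constants**: `c, C1, K` are given first; then the truncation
level `T`, two thresholds `g₁, g₂` and `δ` -/
theorem OneFacts.one (h : OneFacts St En Gr Loss Err Pos Cn Mob Om Bad Sm)
    {c C1 K : ℝ} (hc : 0 < c) (hC1 : 0 < C1) (hK : 0 < K) :
    ∃ T : ℝ, 1 ≤ T ∧ ∃ g₁ : ℝ, 1 ≤ g₁ ∧ ∃ g₂ : ℝ, 1 ≤ g₂ ∧ ∃ δ : ℝ, 0 < δ ∧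
      ∀ s, En s ≤ C1 → Pos T s ≤ K → Cn g₁ s ≤ K → Cn g₂ s ≤ K → Loss s ≤ δ → Err s ≤ δ →
        Gr s < c := by
  -- mobility
  obtain ⟨θ, hθ, C, hC, hmob⟩ := h.mob (c / (4 * C1)) (by positivity)
  obtain ⟨D, hD, hdet⟩ := h.det θ hθ
  -- the budget of each of the six terms
  set ρ : ℝ := c / (24 * C * D) with hρ
  have hρ0 : 0 < ρ := by positivity
  obtain ⟨A, hA, CA, hCA, hbad⟩ := h.bad θ hθ (ρ / C1) (by positivity)
  obtain ⟨k₀, hk₀, g₁, hg₁, ε₁, hε₁, η₁, hη₁, ho₁⟩ := h.om_small hθ hC1 hK hρ0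
  set δ : ℝ := ρ * ε₁ / C1 with hδ
  have hδ0 : 0 < δ := by positivity
  obtain ⟨k, hk, g₂, hg₂, ε₂, hε₂, η₂, hη₂, ho₂⟩ := h.om_small hθ hC1 hK (mul_pos hρ0 hδ0)
  obtain ⟨CS, hCS, hres⟩ := h.res θ hθ A hA ε₁ hε₁ δ hδ0 ε₂ hε₂
  set dl : ℝ := min (min η₁ η₂) (min (ρ / CA) (ρ / (2 * CS))) with hdl
  have hdl0 : 0 < dl := by
    rw [hdl]
    refine lt_min (lt_min hη₁ hη₂) (lt_min (by positivity) (by positivity))
  have d1 : dl ≤ η₁ := (min_le_left _ _).trans (min_le_left _ _)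
  have d2 : dl ≤ η₂ := (min_le_left _ _).trans (min_le_right _ _)
  have d3 : dl ≤ ρ / CA := (min_le_right _ _).trans (min_le_left _ _)
  have d4 : dl ≤ ρ / (2 * CS) := (min_le_right _ _).trans (min_le_right _ _)
  refine ⟨max k₀ k, le_max_of_le_left hk₀, g₁, hg₁, g₂, hg₂, dl, hdl0,
    fun s h1 h2 h3 h4 h5 h6 => ?_⟩
  have E0 := h.En0 s
  have t1 : Sm θ A ε₁ δ ε₂ s ≤ ρ := by
    have e1 := hres s
    have e2 : CS * (Loss s + Err s) ≤ CS * (ρ / (2 * CS) + ρ / (2 * CS)) :=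
      mul_le_mul_of_nonneg_left (by linarith) hCS.le
    have e3 : CS * (ρ / (2 * CS) + ρ / (2 * CS)) = ρ := by
      field_simp
      ring
    linarith
  have t2 : δ / ε₁ * En s ≤ ρ := by
    have e1 : δ / ε₁ * En s ≤ δ / ε₁ * C1 := mul_le_mul_of_nonneg_left h1 (by positivity)
    have e2 : δ / ε₁ * C1 = ρ := by
      rw [hδ]
      field_simp
    linarith
  have t3 : Bad θ A s ≤ 2 * ρ := by
    have e1 := hbad s
    have e2 : ρ / C1 * En s ≤ ρ / C1 * C1 := mul_le_mul_of_nonneg_left h1 (by positivity)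
    have e3 : ρ / C1 * C1 = ρ := by field_simp
    have e4 : CA * Err s ≤ CA * (ρ / CA) := mul_le_mul_of_nonneg_left (by linarith) hCA.le
    have e5 : CA * (ρ / CA) = ρ := by field_simp
    linarith
  have t4 : Om θ ε₁ s ≤ ρ := ho₁ _ (le_max_left _ _) s h1 h2 h3 (h6.trans d1)
  have t5 : Om θ ε₂ s / δ ≤ ρ := by
    rw [div_le_iff₀ hδ0]
    exact ho₂ _ (le_max_right _ _) s h1 h2 h4 (h6.trans d2)
  have t6 : Mob θ s ≤ D * (6 * ρ) := by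
    refine (hdet A hA ε₁ hε₁ δ hδ0 ε₂ hε₂ s).trans (mul_le_mul_of_nonneg_left ?_ hD.le)
    linarith
  have t7 : C * (D * (6 * ρ)) = c / 4 := by
    rw [hρ]
    field_simp
    ring
  have t8 : c / (4 * C1) * En s ≤ c / 4 := by
    have e1 : c / (4 * C1) * En s ≤ c / (4 * C1) * C1 :=
      mul_le_mul_of_nonneg_left h1 (by positivity)
    have e2 : c / (4 * C1) * C1 = c / 4 := by field_simp
    linarith
  have t9 := hmob s
  have t10 : C * Mob θ s ≤ C * (D * (6 * ρ)) := mul_le_mul_of_nonneg_left t6 hC.le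
  linarith

/-- **one stage**: with `good_time` of 213.  `T, g₁, g₂` are chosen after `K` (which depends on
`c, C1, CU, CQ` only); then `ε₀, S₀`.  Along every stage of length `S ≥ S₀` with errors `≤ ε₀` the
logarithmic energy grows by less than `c S`. -/
theorem OneFacts.stage (h : OneFacts St En Gr Loss Err Pos Cn Mob Om Bad Sm)
    {c C1 CU CQ : ℝ} (hc : 0 < c) (hC1 : 0 < C1) (hCU : 0 ≤ CU) (hCQ : 0 ≤ CQ) :
    ∃ T : ℝ, 1 ≤ T ∧ ∃ g₁ : ℝ, 1 ≤ g₁ ∧ ∃ g₂ : ℝ, 1 ≤ g₂ ∧ ∃ ε₀ : ℝ, 0 < ε₀ ∧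
      ∃ S₀ : ℝ, 0 < S₀ ∧ ∀ S ≥ S₀, ∀ ε ≤ ε₀, ∀ (st : ℝ → St) (L U Q : ℝ → ℝ),
        P365T2.H213.Flow C1 CU CQ T ε S (fun τ => En (st τ)) L U Q (fun τ => Loss (st τ))
          (fun τ => Pos T (st τ)) (fun τ => Gr (st τ))
          (fun τ => Cn g₁ (st τ) + Cn g₂ (st τ)) →
        (∀ τ ∈ Set.Ioo 0 S, Err (st τ) ≤ ε₀) → L S - L 0 < c * S := by
  obtain ⟨K, hK, hgt⟩ := P365T2.H213.good_time hc hC1 hCU hCQ
  obtain ⟨T, hT, g₁, hg₁, g₂, hg₂, δ, hδ, hone⟩ :=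
    h.one (c := c / 4) (by positivity) hC1 hK
  obtain ⟨ε₀, hε₀, S₀, hS₀, hgt⟩ := hgt T (by linarith) δ hδ
  refine ⟨T, hT, g₁, hg₁, g₂, hg₂, min ε₀ δ, lt_min hε₀ hδ, S₀, hS₀,
    fun S hS ε hε st L U Q hfl herr => ?_⟩
  by_contra hcon
  push Not at hcon
  obtain ⟨τ, hτ, h1, h2, h3, h4⟩ := hgt S hS ε (hε.trans (min_le_left _ _)) _ L U Q _ _ _ _
    hfl hcon
  have c1 := h.Cn0 g₁ (st τ)
  have c2 := h.Cn0 g₂ (st τ)
  have h5 := hone (st τ) (hfl.D1 τ ⟨hτ.1.le, hτ.2.le⟩) h3 (by linarith) (by linarith) h2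
    ((herr τ hτ).trans (min_le_right _ _))
  linarith

end P365T2.H179
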